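import Vale.Agent.Lib.P368.D4.Large
import Vale.Agent.Lib.P368.D4R.Count2

/-! # Counting the gates of a layer that lie in a set `U` of qubits -/

namespace Vale.Agent.Lib.P368

open Matrix Finset

set_option linter.unusedSectionVars false

variable {ι : Type} [Fintype ι] [DecidableEq ι]

theorem rlist_sum_cardU_aux (l : List (Finset ι × (ι → M2)))
    (hp : l.Pairwise (fun r s => Disjoint r.1 s.1)) (U : Finset ι) (hU : ∀ r ∈ l, r.1 ⊆ U) :
    ∃ V : Finset ι, V ⊆ U ∧ (l.map (fun r => r.1.card)).sum ≤ V.card ∧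
      ∀ t : Finset ι, (∀ r ∈ l, Disjoint t r.1) → Disjoint t V := by
  induction l with
  | nil => exact ⟨∅, by simp, by simp, fun t _ => Finset.disjoint_empty_right t⟩
  | cons r l ih =>
    obtain ⟨V, hVU, hV, hd⟩ := ih (List.pairwise_cons.1 hp).2
      (fun s hs => hU s (List.mem_cons_of_mem _ hs))
    have hrV : Disjoint r.1 V := hd r.1 (List.pairwise_cons.1 hp).1
    refine ⟨r.1 ∪ V, Finset.union_subset (hU r List.mem_cons_self) hVU, ?_, ?_⟩
    · rw [Finset.card_union_of_disjoint hrV, List.map_cons, List.sum_cons]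
      omega
    · intro t ht
      rw [Finset.disjoint_union_right]
      exact ⟨ht r List.mem_cons_self, hd t (fun s hs => ht s (List.mem_cons_of_mem _ hs))⟩

/-- as `rlist_sum_card` (`D4/Large.lean`): disjoint subsets of `U` -/
theorem rlist_sum_cardU (l : List (Finset ι × (ι → M2))) (hl : rlistValid l) (U : Finset ι)
    (hU : ∀ r ∈ l, r.1 ⊆ U) : (l.map (fun r => r.1.card)).sum ≤ U.card := by
  obtain ⟨V, hVU, hV, -⟩ := rlist_sum_cardU_aux l hl.2 U hU
  exact hV.trans (Finset.card_le_card hVU)

/-- as `class_count` (`D4R/Count2.lean`) -/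
theorem class_countU (l : List (Finset ι × (ι → M2))) (hl : rlistValid l) (U : Finset ι)
    (hU : ∀ r ∈ l, r.1 ⊆ U) (t : ℕ) (h : ∀ r ∈ l, t ≤ r.1.card) : t * l.length ≤ U.card := by
  refine le_trans ?_ (rlist_sum_cardU l hl U hU)
  clear hl hU
  induction l with
  | nil => simp
  | cons r l ih =>
    have h1 := h r List.mem_cons_self
    have h2 := ih (fun s hs => h s (List.mem_cons_of_mem _ hs))
    rw [List.length_cons, List.map_cons, List.sum_cons, Nat.mul_succ]
    omega

/-- as `large_count` (`D4/Large.lean`) -/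
theorem large_countU (l : List (Finset ι × (ι → M2))) (hl : rlistValid l) (U : Finset ι)
    (hU : ∀ r ∈ l, r.1 ⊆ U) (t : ℕ) (ht : 1 ≤ t) (hbig : ∀ r ∈ l, t * t < r.1.card) (L : ℕ) :
    l.length ≤ U.card ∧ t * (l.map (gateExp L)).sum ≤ (2 * L + 1) * U.card := by
  have hsum := rlist_sum_cardU l hl U hU
  have key : ∀ l : List (Finset ι × (ι → M2)), (∀ r ∈ l, t * t < r.1.card) →
      l.length ≤ (l.map (fun r => r.1.card)).sum ∧
        t * (l.map (gateExp L)).sum ≤ (2 * L + 1) * (l.map (fun r => r.1.card)).sum := by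
    intro l
    induction l with
    | nil => intro _; simp
    | cons r l ih =>
      intro hb
      obtain ⟨i1, i2⟩ := ih (fun s hs => hb s (List.mem_cons_of_mem _ hs))
      have hr := hb r List.mem_cons_self
      have h5 := gateExp_le t L r hr
      constructor
      · rw [List.length_cons, List.map_cons, List.sum_cons]
        omega
      · rw [List.map_cons, List.sum_cons, List.map_cons, List.sum_cons, Nat.mul_add, Nat.mul_add]
        exact Nat.add_le_add h5 i2
  obtain ⟨k1, k2⟩ := key l hbig
  exact ⟨k1.trans hsum, k2.trans (Nat.mul_le_mul_left _ hsum)⟩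

end Vale.Agent.Lib.P368
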