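import Vale.Agent.Lib.P368.DH.LevelN
import Vale.Agent.Lib.P368.DH.CountU

/-! # A whole layer inside `U` above a stack: dyadic classes of gate sizes -/

namespace Vale.Agent.Lib.P368

open Matrix Finset
open scoped Matrix.Norms.L2Operator

set_option linter.unusedSectionVars false

variable {ι : Type} [Fintype ι] [DecidableEq ι]

/-- copy of `one_class` (`D4R/Dyadic.lean`) with `Fintype.card ι` replaced by `N`, `class_count` by
`class_countU` (and `U.card ≤ N`), `gate_apx` by `gate_apxN` -/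
theorem one_classN (N : ℕ) (U : Finset ι) (hUN : U.card ≤ N)
    (σ : List (Finset ι × (ι → M2))) (hσ : ∀ r ∈ σ, ReflValid r) (η : ℝ)
    (D : ℕ → ℕ) (hD : Monotone D) (H : LevelApxN N σ η D) (hη0 : 0 ≤ η) (hη : η ≤ 1 / 8) (L : ℕ)
    (K : ℝ) (hK : K = (((Nat.sqrt N + 1) * L : ℕ) : ℝ))
    (hsmall : 224 * K ^ 2 * η ≤ 1) (a : ℕ)
    (ρa : List (Finset ι × (ι → M2))) (hρa : rlistValid ρa) (hsub : ∀ r ∈ ρa, r.1 ⊆ U)
    (hlo : ∀ r ∈ ρa, 2 ^ (a - 1) ≤ r.1.card) (hhi : ∀ r ∈ ρa, r.1.card ≤ 2 ^ a)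
    (B : ι → M2) (hB : SiteP B) (hBS : ∀ j, j ∉ suppUnion ρa → B j = 1) :
    Apx σ (1 + 2 / 2 ^ L + 84 * K ^ 2 * η) (39 ^ clsExp D N L a) (conjBy ρa (prodOp B)) := by
  have hM : ρa.length ≤ Mcls N a := by
    unfold Mcls
    rw [Nat.le_div_iff_mul_le (by positivity), mul_comm]
    exact (class_countU ρa hρa U hsub _ hlo).trans hUN
  set k : ℕ := (Nat.sqrt (Mcls N a) + 1) * L with hk
  have hkK : (k : ℝ) ≤ K := by
    rw [hK]
    have h1 : Mcls N a ≤ N := Nat.div_le_self _ _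
    have h2 := Nat.sqrt_le_sqrt h1
    have h3 : k ≤ (Nat.sqrt N + 1) * L := Nat.mul_le_mul_right _ (by omega)
    exact_mod_cast h3
  have hk0 : (0 : ℝ) ≤ k := Nat.cast_nonneg _
  have hk2 : (k : ℝ) ^ 2 ≤ K ^ 2 := pow_le_pow_left₀ hk0 hkK 2
  have hk2η : (k : ℝ) ^ 2 * η ≤ K ^ 2 * η := mul_le_mul_of_nonneg_right hk2 hη0
  set cE : ℝ := 39 ^ (3 * D (2 ^ a) + 1) with hcE
  have hc1 : 1 ≤ cE := one_le_pow₀ (by norm_num)
  have h := class_apx σ hσ ρa hρa B hB hBS (7 * η) cE (by linarith) hc1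
    (fun r hr => gate_apxN N σ hσ η D hD H hη0 hη r (hρa.1 r hr)
      ((Finset.card_le_card (hsub r hr)).trans hUN) _ (hhi r hr) B hB)
    (Mcls N a) hM L k hk (by nlinarith)
  refine h.mono (by nlinarith) ?_
  have h4 : 4 * cE + 3 ≤ 39 ^ (3 * D (2 ^ a) + 2) := by
    rw [pow_succ (39 : ℝ) (3 * D (2 ^ a) + 1), ← hcE]
    linarith
  calc (4 * cE + 3) ^ k ≤ ((39 : ℝ) ^ (3 * D (2 ^ a) + 2)) ^ k :=
        pow_le_pow_left₀ (by linarith) h4 k
    _ = 39 ^ clsExp D N L a := by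
        rw [← pow_mul]
        rfl

/-- copy of `dyadic_apx` (`D4R/Dyadic.lean`) -/
theorem dyadic_apxN (N : ℕ) (U : Finset ι) (hUN : U.card ≤ N)
    (σ : List (Finset ι × (ι → M2))) (hσ : ∀ r ∈ σ, ReflValid r) (η : ℝ)
    (D : ℕ → ℕ) (hD : Monotone D) (H : LevelApxN N σ η D) (hη0 : 0 ≤ η) (hη : η ≤ 1 / 8) (L : ℕ)
    (K : ℝ) (hK : K = (((Nat.sqrt N + 1) * L : ℕ) : ℝ))
    (hsmall : 224 * K ^ 2 * η ≤ 1) (A : ℕ) :
    ∀ (ρ : List (Finset ι × (ι → M2))), rlistValid ρ → (∀ r ∈ ρ, r.1 ⊆ U) →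
      (∀ r ∈ ρ, 1 ≤ r.1.card ∧ r.1.card ≤ 2 ^ A) → ∀ B : ι → M2, SiteP B →
      (∀ j, j ∉ suppUnion ρ → B j = 1) →
      Apx σ ((1 + 2 / 2 ^ L + 84 * K ^ 2 * η) ^ (A + 1))
        (39 ^ (∑ a ∈ Finset.range (A + 1), clsExp D N L a)) (conjBy ρ (prodOp B)) := by
  induction A with
  | zero =>
    intro ρ hρ hsub hs B hB hBS
    have h := one_classN N U hUN σ hσ η D hD H hη0 hη L K hK hsmall 0 ρ hρ hsub
      (fun r hr => by simpa using (hs r hr).1) (fun r hr => (hs r hr).2) B hB hBS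
    simpa using h
  | succ A ih =>
    intro ρ hρ hsub hs B hB hBS
    set p : Finset ι × (ι → M2) → Bool := fun r => decide (2 ^ A < r.1.card) with hp
    rw [conjBy_factor2 ρ hρ p B hBS]
    have vb := rlistValid_filter hρ p
    have vs := rlistValid_filter hρ (fun r => !p r)
    have hb := one_classN N U hUN σ hσ η D hD H hη0 hη L K hK hsmall (A + 1) (ρ.filter p) vb
      (fun r hr => hsub r (List.mem_filter.1 hr).1)
      (fun r hr => by
        have h1 := (List.mem_filter.1 hr).2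
        simp only [hp, decide_eq_true_eq] at h1
        simpa using h1.le)
      (fun r hr => (hs r (List.mem_filter.1 hr).1).2)
      (restr B (suppUnion (ρ.filter p))) (hB.restr _)
      (fun j hj => by unfold restr; rw [if_neg hj])
    have hsm := ih (ρ.filter (fun r => !p r)) vs
      (fun r hr => hsub r (List.mem_filter.1 hr).1)
      (fun r hr => by
        have h1 := (List.mem_filter.1 hr).2
        simp only [hp, Bool.not_eq_true', decide_eq_false_iff_not, not_lt] at h1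
        exact ⟨(hs r (List.mem_filter.1 hr).1).1, h1⟩)
      (restr B (suppUnion (ρ.filter (fun r => !p r)))) (hB.restr _)
      (fun j hj => by unfold restr; rw [if_neg hj])
    have hm := Apx.mul hσ (opn_conj_siteP _ vb.1 (hB.restr _)) (opn_conj_siteP _ vs.1 (hB.restr _))
      hb hsm
    refine hm.mono (le_of_eq ?_) (le_of_eq ?_)
    · rw [pow_succ (1 + 2 / 2 ^ L + 84 * K ^ 2 * η) (A + 1), mul_comm]
    · rw [Finset.sum_range_succ _ (A + 1), pow_add, mul_comm]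

/-- copy of `level_step` (`D4R/Dyadic.lean`); now `B` is trivial outside `U`, `H` is used with
`S = U` (then `D U.card ≤ D N` by monotonicity), and `r.1.card ≤ U.card ≤ N < 2 ^ (Nat.log 2 N + 1)` -/
theorem level_stepN (N : ℕ) (U : Finset ι) (hUN : U.card ≤ N)
    (σ : List (Finset ι × (ι → M2))) (hσ : ∀ r ∈ σ, ReflValid r) (η : ℝ)
    (D : ℕ → ℕ) (hD : Monotone D) (H : LevelApxN N σ η D) (hη0 : 0 ≤ η) (hη : η ≤ 1 / 8) (L : ℕ)
    (K : ℝ) (hK : K = (((Nat.sqrt N + 1) * L : ℕ) : ℝ))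
    (hsmall : 224 * K ^ 2 * η ≤ 1) (ρ : List (Finset ι × (ι → M2))) (hρ : rlistValid ρ)
    (hsub : ∀ r ∈ ρ, r.1 ⊆ U) (B : ι → M2) (hB : SiteP B) (hBU : ∀ j, j ∉ U → B j = 1) :
    Apx σ ((1 + η) * (1 + 2 / 2 ^ L + 84 * K ^ 2 * η) ^ (Nat.log 2 N + 2))
      (39 ^ totExp D N L) (conjBy ρ (prodOp B)) := by
  rw [conjBy_filter_nonempty ρ hρ.1]
  set ρ' := ρ.filter (fun r => decide (1 ≤ r.1.card)) with hρ'
  have v' : rlistValid ρ' := rlistValid_filter hρ _
  rw [conjBy_outside ρ' v' B]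
  have hB1 : SiteP (fun j => if j ∈ suppUnion ρ' then 1 else B j) := by
    intro j
    by_cases hj : j ∈ suppUnion ρ'
    · simp only [if_pos hj]; exact Or.inl trivial
    · simp only [if_neg hj]; exact hB j
  have h1 := H _ hB1 U hUN (fun j hj => by
    by_cases hj' : j ∈ suppUnion ρ'
    · simp only [if_pos hj']
    · simp only [if_neg hj']; exact hBU j hj)
  have h1' : Apx σ (1 + η) (39 ^ D N) (prodOp (fun j => if j ∈ suppUnion ρ' then 1 else B j)) :=
    h1.mono le_rfl (pow_le_pow_right₀ (by norm_num) (hD hUN))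
  have h2 := dyadic_apxN N U hUN σ hσ η D hD H hη0 hη L K hK hsmall (Nat.log 2 N + 1) ρ' v'
    (fun r hr => hsub r (List.mem_filter.1 hr).1)
    (fun r hr => by
      have h3 := (List.mem_filter.1 hr).2
      simp only [decide_eq_true_eq] at h3
      refine ⟨h3, ?_⟩
      have h4 : r.1.card ≤ N := (Finset.card_le_card (hsub r (List.mem_filter.1 hr).1)).trans hUN
      have h5 := Nat.lt_pow_succ_log_self (b := 2) (by norm_num) N
      omega)
    (restr B (suppUnion ρ')) (hB.restr _) (fun j hj => by unfold restr; rw [if_neg hj])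
  have hm := Apx.mul hσ (opn_prodOp_siteP_le hB1) (opn_conj_siteP _ v'.1 (hB.restr _)) h1' h2
  refine hm.mono (le_of_eq rfl) (le_of_eq ?_)
  unfold totExp
  rw [pow_add]

end Vale.Agent.Lib.P368
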