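import Vale.Agent.Lib.P368.DH.NFA

/-! # Normal form of a circuit, with the supports of the gates above the second entangling layer -/

namespace Vale.Agent.Lib.P368

open Matrix Finset

set_option linter.unusedSectionVars false

variable {ι : Type} [Fintype ι] [DecidableEq ι]

theorem RFU.succ {U : Finset ι} {k : ℕ} {X : Op ι} (h : RFU U k X) : RFU U (k + 1) X :=
  ⟨[], X, ⟨by simp, List.Pairwise.nil⟩, by simp, h, by simp [rlistOp]⟩

theorem RFU.mono {U : Finset ι} {k m : ℕ} {X : Op ι} (h : RFU U k X) (hkm : k ≤ m) :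
    RFU U m X := by
  induction hkm with
  | refl => exact h
  | step _ ih => exact ih.succ

theorem RFU.layers {U : Finset ι} {k : ℕ} {X : Op ι} (h : RFU U k X) :
    ∃ Λ : List (List (Finset ι × (ι → M2))), Λ.length = k ∧ (∀ l ∈ Λ, rlistValid l) ∧
      (∀ l ∈ Λ, ∀ r ∈ l, r.1 ⊆ U) ∧ X = rlistOp Λ.flatten := by
  induction k generalizing X with
  | zero =>
    have hX : X = 1 := h
    exact ⟨[], rfl, by simp, by simp, by rw [hX]; simp [rlistOp]⟩
  | succ k ih =>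
    obtain ⟨l, X', hl, hlU, hX', rfl⟩ := h
    obtain ⟨Λ, hlen, hval, hsub, rfl⟩ := ih hX'
    refine ⟨l :: Λ, by rw [List.length_cons, hlen], ?_, ?_, ?_⟩
    · intro l' hl'
      rcases List.mem_cons.1 hl' with rfl | hl'
      · exact hl
      · exact hval l' hl'
    · intro l' hl'
      rcases List.mem_cons.1 hl' with rfl | hl'
      · exact hlU
      · exact hsub l' hl'
    · rw [List.flatten_cons, rlistOp_appendG]

/-- `circuitOp (C₁ ++ C₂) = C₂.foldl .. (circuitOp C₁)` (`List.foldl_append`); `circuit_nf_two` for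
`C₁`; `circuit_nf_auxU` for `C₂` with `Y = rlistOp ρ₂ * rlistOp l₁`, `k = 0`; monotonicity of `RFU` in
`k` (add empty layers, as `RF.mono`); then unfold `RFU U (m + 2)` into `l₄`, `ρ₃` and `m` further
layers (as `RF.layers` and `circuit_nf_general` in `DG/NFG.lean`), `rlistOp_appendG`. -/
theorem circuit_nf_split (C₁ C₂ : List (List (Gate ι))) (hC : circuitValid (C₁ ++ C₂)) (m : ℕ)
    (h₁ : entanglingDepth C₁ ≤ 2) (h₂ : entanglingDepth C₂ ≤ m + 2) (U : Finset ι)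
    (hU : ∀ L ∈ C₂, ∀ g ∈ L, g.isMulti = true → g.supp ⊆ U) :
    ∃ (u : ι → M2) (l₄ ρ₃ : List (Finset ι × (ι → M2)))
      (mids : List (List (Finset ι × (ι → M2)))) (ρ₂ l₁ : List (Finset ι × (ι → M2))),
      LocalU u ∧ rlistValid l₄ ∧ rlistValid ρ₃ ∧ mids.length = m ∧ (∀ ρ ∈ mids, rlistValid ρ) ∧
      rlistValid ρ₂ ∧ rlistValid l₁ ∧ (∀ r ∈ l₄, r.1 ⊆ U) ∧ (∀ r ∈ ρ₃, r.1 ⊆ U) ∧
      (∀ ρ ∈ mids, ∀ r ∈ ρ, r.1 ⊆ U) ∧
      circuitOp (C₁ ++ C₂)
        = prodOp u * (rlistOp l₄ * (rlistOp ρ₃ * (rlistOp (mids.flatten ++ ρ₂) * rlistOp l₁))) := by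
  have hC1 : circuitValid C₁ := fun L hL => hC L (List.mem_append_left _ hL)
  have hC2 : circuitValid C₂ := fun L hL => hC L (List.mem_append_right _ hL)
  obtain ⟨u1, ρ₂, l₁, hu1, h₂', h₁', heq1⟩ := circuit_nf_two C₁ hC1 h₁
  have hsplit : circuitOp (C₁ ++ C₂) = C₂.foldl (fun V L => layerOp L * V) (circuitOp C₁) := by
    simp only [circuitOp, List.foldl_append]
  obtain ⟨u, X, hu, hX, heq⟩ := circuit_nf_auxU U C₂ hC2 hU (circuitOp C₁)
    (rlistOp ρ₂ * rlistOp l₁) 0 ⟨u1, 1, hu1, rfl, by rw [heq1, Matrix.one_mul]⟩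
  have hX' : RFU U (m + 2) X := hX.mono (by omega)
  obtain ⟨l₄, X', h₄, h₄U, ⟨ρ₃, X'', h₃, h₃U, hX'', rfl⟩, rfl⟩ := hX'
  obtain ⟨mids, hlen, hval, hsub, rfl⟩ := RFU.layers hX''
  refine ⟨u, l₄, ρ₃, mids, ρ₂, l₁, hu, h₄, h₃, hlen, hval, h₂', h₁', h₄U, h₃U, hsub, ?_⟩
  rw [hsplit, heq, rlistOp_appendG]
  simp only [Matrix.mul_assoc]

end Vale.Agent.Lib.P368
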