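import Vale.Agent.Lib.P368.DH.TopN
import Vale.Agent.Lib.P368.DH.NFU
import Vale.Agent.Lib.P368.DG.FinalG

/-! # Every entangling depth: only the qubits used above the second entangling layer count -/

namespace Vale.Agent.Lib.P368

open Matrix Finset

/-- parametric bound; `N` bounds the number of qubits in `U`, a set that contains the output qubit
and all multiqubit gates of the upper part `C₂` -/
theorem depth_split_param {n a : ℕ} (C₁ C₂ : List (List (Gate (Fin n ⊕ Fin a))))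
    (hC : circuitValid (C₁ ++ C₂)) (m : ℕ) (h₁ : entanglingDepth C₁ ≤ 2)
    (h₂ : entanglingDepth C₂ ≤ m + 2) (U : Finset (Fin n ⊕ Fin a)) (N : ℕ) (hUN : U.card ≤ N)
    (hU : ∀ L ∈ C₂, ∀ g ∈ L, g.isMulti = true → g.supp ⊆ U) (o : Fin n ⊕ Fin a) (ho : o ∈ U)
    (L : ℕ) (t : ℕ → ℕ) (ht : ∀ i, 1 ≤ t i)
    (K : ℝ) (hK : K = (((Nat.sqrt N + 1) * L : ℕ) : ℝ))
    (hη : ∀ i ≤ m, 0 ≤ etas L K i ∧ etas L K i ≤ 1 / 8 ∧ 224 * K ^ 2 * etas L K i ≤ 1)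
    (e c w : ℝ)
    (he : e = (1 + etas L K m) * (1 + 2 / 2 ^ L + 84 * K ^ 2 * etas L K m) ^ (Nat.log 2 N + 2))
    (hc : c = 39 ^ totExp (fun s => (Nat.sqrt s + 1) * Qs L t m) N L)
    (hw : w = ws N L K m) :
    |parityCorrelation (C₁ ++ C₂) o|
      ≤ 2 * ((w * ((2 * e - 1) * e * (2 * e - 1)) * w - 1)
        + 39 ^ Es N L t m * ((1 + 2 * c) * c * (1 + 2 * c)) * 39 ^ Es N L t m * gam ^ n) := by
  obtain ⟨u, l₄, ρ₃, mids, ρ₂, l₁, hu, h₄, h₃, hlen, hmids, hρ₂, hl₁, h₄U, h₃U, hmU, heq⟩ :=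
    circuit_nf_split C₁ C₂ hC m h₁ h₂ U hU
  have hinv := stack_invN N U hUN ρ₂ hρ₂ L K hK t ht mids hmids hmU
    (fun i hi => hη i (by omega))
  rw [hlen] at hinv
  obtain ⟨h0, h8, hs⟩ := hη m le_rfl
  have H : ∀ π : M2, Pr π → Apx [] (w * ((2 * e - 1) * e * (2 * e - 1)) * w)
      (39 ^ Es N L t m * ((1 + 2 * c) * c * (1 + 2 * c)) * 39 ^ Es N L t m)
      (conjBy (mids.flatten ++ ρ₂) (conjBy ρ₃ (conjBy l₄ (prodOp (atSite o π))))) := by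
    intro π hπ
    rw [hw]
    exact topN_apx N U hUN _ ρ₃ l₄ _ _ _ _ hinv h0 h8 L K hK hs h₃ h₃U h₄ h₄U o ho π hπ e c he hc
  have h := corr_eq (C₁ ++ C₂) o
  rw [heq] at h
  have b0 := heisG_bound (fun j : Fin n ⊕ Fin a => Sum.isLeft j) o false u l₄ ρ₃ _ l₁ hu hl₁ _ _ H
  have b1 := heisG_bound (fun j : Fin n ⊕ Fin a => Sum.isLeft j) o true u l₄ ρ₃ _ l₁ hu hl₁ _ _ H
  rw [numInp_sum] at b0 b1
  have : |parityCorrelation (C₁ ++ C₂) o| = ‖((parityCorrelation (C₁ ++ C₂) o : ℝ) : ℂ)‖ := by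
    rw [Complex.norm_real, Real.norm_eq_abs]
  rw [this, h]
  refine (norm_sub_le _ _).trans ?_
  linarith

/-- the circuit is `C₁` followed by `C₂`; `C₁` has entangling depth at most two and is otherwise
arbitrary; `C₂` has entangling depth at most `m + 2`, and its multiqubit gates and the output qubit
lie in a set of at most `N` qubits -/
theorem depth_split {n a : ℕ} (C₁ C₂ : List (List (Gate (Fin n ⊕ Fin a))))
    (hC : circuitValid (C₁ ++ C₂)) (m x : ℕ) (h₁ : entanglingDepth C₁ ≤ 2)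
    (h₂ : entanglingDepth C₂ ≤ m + 2) (U : Finset (Fin n ⊕ Fin a)) (N : ℕ) (hUN : U.card ≤ N)
    (hU : ∀ L ∈ C₂, ∀ g ∈ L, g.isMulti = true → g.supp ⊆ U) (o : Fin n ⊕ Fin a) (ho : o ∈ U)
    (ε : ℝ) (hε0 : 0 < ε) (hε1 : ε ≤ 1) (hx : N ≤ x ^ (2 ^ (m + 1)))
    (h : 30 * Real.logb 2 (160 * ((m : ℝ) + 2) * ((N : ℝ) + 1) / ε)
      * (36 * ((m : ℝ) + 2) * Real.logb 2 (160 * ((m : ℝ) + 2) * ((N : ℝ) + 1) / ε)) ^ (m + 2)
      * (x : ℝ) ^ (2 ^ (m + 1) - 1) ≤ n) :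
    |parityCorrelation (C₁ ++ C₂) o| ≤ ε := by
  have hN : 1 ≤ N := by
    have : 0 < U.card := Finset.card_pos.2 ⟨o, ho⟩
    omega
  have hx1 : 1 ≤ x := by
    rcases Nat.eq_zero_or_pos x with h0 | h0
    · subst h0
      rw [zero_pow (by positivity)] at hx
      omega
    · exact h0
  obtain ⟨Λ, hΛ⟩ : ∃ Λ : ℝ, Λ = Real.logb 2 (160 * ((m : ℝ) + 2) * ((N : ℝ) + 1) / ε) := ⟨_, rfl⟩
  rw [← hΛ] at h
  obtain ⟨L, hL1, hLΛ, hmaster⟩ := chooseL N m ε hε0 hε1 hN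
  rw [← hΛ] at hLΛ
  have hK1 : (1 : ℝ) ≤ (((Nat.sqrt N + 1) * L : ℕ) : ℝ) := by
    have : 1 ≤ (Nat.sqrt N + 1) * L := Nat.one_le_iff_ne_zero.2 (by positivity)
    exact_mod_cast this
  obtain ⟨hη, herr⟩ := errG N L m ε hε0 hε1 hN _ hK1 hmaster _ _ rfl rfl
  have hmain := depth_split_param C₁ C₂ hC m h₁ h₂ U N hUN hU o ho L (tx x)
    (fun i => Nat.one_le_pow _ _ hx1) _ rfl hη _ _ _ rfl rfl rfl
  have hexp := expG_le N m x L ε Λ hε0 hε1 hN hx1 hx hL1 hΛ hLΛ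
  have hlog := logG m (x ^ (2 ^ (m + 1) - 1)) N ε Λ hε0 hε1 hN (Nat.one_le_pow _ _ hx1) hΛ
  push_cast at hlog
  have hcost := costG n (Es N L (tx x) m) _ ε hε0 (by linarith) (by linarith) _ rfl
  linarith

end Vale.Agent.Lib.P368
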