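import Vale.Agent.Lib.P368.DH.FinalN
import Vale.Agent.Lib.P368.DG.FinalA

/-! # Only the qubits used above the second entangling layer count: real powers, asymptotic form -/

namespace Vale.Agent.Lib.P368

open Matrix Finset

/-- `depth_split` in terms of a real power of the number `N` of qubits in `U` -/
theorem depth_split_rpow {n a : ℕ} (C₁ C₂ : List (List (Gate (Fin n ⊕ Fin a))))
    (hC : circuitValid (C₁ ++ C₂)) (m : ℕ) (h₁ : entanglingDepth C₁ ≤ 2)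
    (h₂ : entanglingDepth C₂ ≤ m + 2) (U : Finset (Fin n ⊕ Fin a)) (N : ℕ) (hUN : U.card ≤ N)
    (hU : ∀ L ∈ C₂, ∀ g ∈ L, g.isMulti = true → g.supp ⊆ U) (o : Fin n ⊕ Fin a) (ho : o ∈ U)
    (ε : ℝ) (hε0 : 0 < ε) (hε1 : ε ≤ 1)
    (h : 30 * Real.logb 2 (160 * ((m : ℝ) + 2) * ((N : ℝ) + 1) / ε)
      * (36 * ((m : ℝ) + 2) * Real.logb 2 (160 * ((m : ℝ) + 2) * ((N : ℝ) + 1) / ε)) ^ (m + 2)
      * (2 * (N : ℝ) ^ ((1 : ℝ) / 2 ^ (m + 1))) ^ (2 ^ (m + 1) - 1) ≤ n) :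
    |parityCorrelation (C₁ ++ C₂) o| ≤ ε := by
  have hN : 1 ≤ N := by
    have : 0 < U.card := Finset.card_pos.2 ⟨o, ho⟩
    omega
  have hNr : (1 : ℝ) ≤ (N : ℝ) := by exact_mod_cast hN
  have hN0 : (0 : ℝ) ≤ (N : ℝ) := by linarith
  have hm0 : (0 : ℝ) ≤ (m : ℝ) := Nat.cast_nonneg _
  obtain ⟨y, hy⟩ : ∃ y : ℝ, y = (N : ℝ) ^ ((1 : ℝ) / 2 ^ (m + 1)) := ⟨_, rfl⟩
  rw [← hy] at h
  have hy1 : 1 ≤ y := by
    rw [hy]
    exact Real.one_le_rpow hNr (by positivity)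
  have hyk : y ^ (2 ^ (m + 1)) = (N : ℝ) := by
    rw [hy, ← Real.rpow_natCast, ← Real.rpow_mul hN0]
    have : (1 : ℝ) / 2 ^ (m + 1) * ((2 ^ (m + 1) : ℕ) : ℝ) = 1 := by
      push_cast
      field_simp
    rw [this, Real.rpow_one]
  have hxy : y ≤ (⌈y⌉₊ : ℝ) := Nat.le_ceil y
  have hx2 : (⌈y⌉₊ : ℝ) ≤ 2 * y := by
    have := Nat.ceil_lt_add_one (by linarith : (0 : ℝ) ≤ y)
    linarith
  have hx : N ≤ ⌈y⌉₊ ^ (2 ^ (m + 1)) := by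
    have h1 : (N : ℝ) ≤ ((⌈y⌉₊ ^ (2 ^ (m + 1)) : ℕ) : ℝ) := by
      push_cast
      rw [← hyk]
      exact pow_le_pow_left₀ (by linarith) hxy _
    exact_mod_cast h1
  obtain ⟨Λ, hΛ⟩ : ∃ Λ : ℝ, Λ = Real.logb 2 (160 * ((m : ℝ) + 2) * ((N : ℝ) + 1) / ε) :=
    ⟨_, rfl⟩
  have hΛ0 : 0 ≤ Λ := by
    rw [hΛ]
    apply Real.logb_nonneg (by norm_num)
    rw [le_div_iff₀ hε0]
    nlinarith
  apply depth_split C₁ C₂ hC m ⌈y⌉₊ h₁ h₂ U N hUN hU o ho ε hε0 hε1 hx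
  rw [← hΛ] at h ⊢
  refine le_trans ?_ h
  apply mul_le_mul_of_nonneg_left
  · exact pow_le_pow_left₀ (Nat.cast_nonneg _) hx2 _
  · positivity

/-- asymptotic form of `depth_split` -/
theorem depth_split_asymp (m : ℕ) (ε : ℝ) (hε0 : 0 < ε) :
    ∃ c : ℝ, 0 < c ∧ ∀ (n a : ℕ) (C₁ C₂ : List (List (Gate (Fin n ⊕ Fin a))))
      (U : Finset (Fin n ⊕ Fin a)) (o : Fin n ⊕ Fin a),
      circuitValid (C₁ ++ C₂) → entanglingDepth C₁ ≤ 2 → entanglingDepth C₂ ≤ m + 2 →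
      (∀ L ∈ C₂, ∀ g ∈ L, g.isMulti = true → g.supp ⊆ U) → o ∈ U →
      (U.card : ℝ) ≤ c * ((n : ℝ) / (Real.logb 2 n) ^ (m + 3))
        ^ ((2 : ℝ) ^ (m + 1) / ((2 : ℝ) ^ (m + 1) - 1)) →
      |parityCorrelation (C₁ ++ C₂) o| ≤ ε := by
  obtain ⟨c, hc0, hc⟩ := asymp_real m (min ε 1) (lt_min hε0 one_pos) (min_le_right _ _)
  refine ⟨c, hc0, ?_⟩
  intro n a C₁ C₂ U o hC h₁ h₂ hU ho h
  have hN : 1 ≤ U.card := Finset.card_pos.2 ⟨o, ho⟩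
  have hNr : (1 : ℝ) ≤ (U.card : ℝ) := by exact_mod_cast hN
  refine le_trans (depth_split_rpow C₁ C₂ hC m h₁ h₂ U U.card le_rfl hU o ho (min ε 1)
    (lt_min hε0 one_pos) (min_le_right _ _) ?_) (min_le_left _ _)
  exact hc n (U.card : ℝ) hNr h

end Vale.Agent.Lib.P368
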