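import Vale.Agent.Lib.P368.DH.LevelN
import Vale.Agent.Lib.P368.DH.CountU

/-! # One more layer on top of a stack: small gates, large gates (supports of at most `N` sites) -/

namespace Vale.Agent.Lib.P368

open Matrix Finset
open scoped Matrix.Norms.L2Operator

set_option linter.unusedSectionVars false

variable {ι : Type} [Fintype ι] [DecidableEq ι]

/-- copy of `mid_step` (`DG/MidStep.lean`): now `S.card ≤ N`, so `k = (Nat.sqrt |S| + 1) * L ≤ K`;
`gate_apxN` needs `r.1.card ≤ N` (`hN`) -/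
theorem mid_stepN (N : ℕ) (σ : List (Finset ι × (ι → M2))) (hσ : ∀ r ∈ σ, ReflValid r) (η : ℝ)
    (Q : ℕ) (H : LevelSN N σ η Q) (hη0 : 0 ≤ η) (hη : η ≤ 1 / 8) (L : ℕ) (K : ℝ)
    (hK : K = (((Nat.sqrt N + 1) * L : ℕ) : ℝ)) (hsmall : 224 * K ^ 2 * η ≤ 1)
    (ρ : List (Finset ι × (ι → M2))) (hρ : rlistValid ρ) (hN : ∀ r ∈ ρ, r.1.card ≤ N) (t : ℕ)
    (hsz : ∀ r ∈ ρ, r.1.card ≤ t * t) :
    LevelSN N (ρ ++ σ) ((1 + η) * (1 + 2 / 2 ^ L + 84 * K ^ 2 * η) - 1)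
      (Q + (3 * ((t + 1) * Q) + 2) * L) := by
  intro B hB S hSN hS
  apply Apx.append
  rw [conjBy_touching ρ hρ B S hS]
  set ρ' := touching ρ S with hρ'
  have v' : rlistValid ρ' := rlistValid_filter hρ _
  rw [conjBy_outside ρ' v' B]
  have hB1 : SiteP (fun j => if j ∈ suppUnion ρ' then 1 else B j) := by
    intro j
    by_cases hj : j ∈ suppUnion ρ'
    · simp only [if_pos hj]; exact Or.inl trivial
    · simp only [if_neg hj]; exact hB j
  have h1 := H _ hB1 S hSN (fun j hj => by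
    by_cases hj' : j ∈ suppUnion ρ'
    · simp only [if_pos hj']
    · simp only [if_neg hj']; exact hS j hj)
  -- the second factor
  have hM : ρ'.length ≤ S.card := touching_length ρ hρ.2 S
  set k : ℕ := (Nat.sqrt S.card + 1) * L with hk
  have hkK : (k : ℝ) ≤ K := by
    rw [hK]
    have h2 := Nat.sqrt_le_sqrt hSN
    have h3 : k ≤ (Nat.sqrt N + 1) * L := Nat.mul_le_mul_right _ (by omega)
    exact_mod_cast h3
  have hk0 : (0 : ℝ) ≤ k := Nat.cast_nonneg _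
  have hk2 : (k : ℝ) ^ 2 ≤ K ^ 2 := pow_le_pow_left₀ hk0 hkK 2
  have hk2η : (k : ℝ) ^ 2 * η ≤ K ^ 2 * η := mul_le_mul_of_nonneg_right hk2 hη0
  set cE : ℝ := 39 ^ (3 * ((t + 1) * Q) + 1) with hcE
  have hc1 : 1 ≤ cE := one_le_pow₀ (by norm_num)
  have hB' : SiteP (restr B (suppUnion ρ')) := hB.restr _
  have hgate : ∀ r ∈ ρ', Apx σ (1 + 7 * η) cE
      (reflOp r * prodOp (restr (restr B (suppUnion ρ')) r.1) * reflOp r) := by
    intro r hr
    have hrρ : r ∈ ρ := List.mem_of_mem_filter hr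
    have h := gate_apxN N σ hσ η (fun s => (Nat.sqrt s + 1) * Q) (sqrtQ_mono Q) H hη0 hη r
      (v'.1 r hr) (hN r hrρ) (t * t) (hsz r hrρ) (restr B (suppUnion ρ')) hB'
    simp only [Nat.sqrt_eq] at h
    exact h
  have h := class_apx σ hσ ρ' v' (restr B (suppUnion ρ')) hB'
    (fun j hj => by unfold restr; rw [if_neg hj]) (7 * η) cE (by linarith) hc1
    hgate S.card hM L k hk (by nlinarith)
  have h2 : Apx σ (1 + 2 / 2 ^ L + 84 * K ^ 2 * η)
      (39 ^ ((3 * ((t + 1) * Q) + 2) * k)) (conjBy ρ' (prodOp (restr B (suppUnion ρ')))) := by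
    refine h.mono (by nlinarith) ?_
    have h4 : 4 * cE + 3 ≤ 39 ^ (3 * ((t + 1) * Q) + 2) := by
      rw [pow_succ (39 : ℝ) (3 * ((t + 1) * Q) + 1), ← hcE]
      linarith
    calc (4 * cE + 3) ^ k ≤ ((39 : ℝ) ^ (3 * ((t + 1) * Q) + 2)) ^ k :=
          pow_le_pow_left₀ (by linarith) h4 k
      _ = 39 ^ ((3 * ((t + 1) * Q) + 2) * k) := by rw [← pow_mul]
  have hm := Apx.mul hσ (opn_prodOp_siteP_le hB1) (opn_conj_siteP _ v'.1 hB') h1 h2
  refine hm.mono (le_of_eq (by ring)) (le_of_eq ?_)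
  rw [← pow_add]
  congr 1
  rw [hk]
  ring

end Vale.Agent.Lib.P368
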