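import Vale.Agent.Lib.P368.DH.NFL

/-! # Normal form of the upper part of a circuit -/

namespace Vale.Agent.Lib.P368

open Matrix Finset

set_option linter.unusedSectionVars false

variable {ι : Type} [Fintype ι] [DecidableEq ι]

/-- products of `k` layers of reflections inside `U` -/
def RFU (U : Finset ι) : ℕ → Op ι → Prop
  | 0, X => X = 1
  | k + 1, X => ∃ (l : List (Finset ι × (ι → M2))) (X' : Op ι),
      rlistValid l ∧ (∀ r ∈ l, r.1 ⊆ U) ∧ RFU U k X' ∧ X = rlistOp l * X'

/-- as `circuit_nf_aux` (`Normal.lean`), for the upper part of the circuit: `Y` is the operator of the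
lower part -/
theorem circuit_nf_auxU (U : Finset ι) (C : List (List (Gate ι))) (hC : circuitValid C)
    (hU : ∀ L ∈ C, ∀ g ∈ L, g.isMulti = true → g.supp ⊆ U) (V Y : Op ι) (k : ℕ)
    (hV : ∃ (u : ι → M2) (X : Op ι), LocalU u ∧ RFU U k X ∧ V = prodOp u * (X * Y)) :
    ∃ (u : ι → M2) (X : Op ι), LocalU u ∧ RFU U (k + entanglingDepth C) X ∧
      C.foldl (fun V L => layerOp L * V) V = prodOp u * (X * Y) := by
  induction C generalizing V k with
  | nil => simpa [entanglingDepth] using hV
  | cons L C ih =>
    obtain ⟨u, X, hu, hX, rfl⟩ := hV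
    have hL := hC L List.mem_cons_self
    have hC' : circuitValid C := fun L' hL' => hC L' (List.mem_cons_of_mem _ hL')
    have hU' : ∀ L' ∈ C, ∀ g ∈ L', g.isMulti = true → g.supp ⊆ U :=
      fun L' hL' => hU L' (List.mem_cons_of_mem _ hL')
    obtain ⟨u', l, hu', hl, hsupp, hent, heq⟩ := layer_nf_multi L hL u hu
    have hlU : ∀ r ∈ l, r.1 ⊆ U := by
      intro r hr
      obtain ⟨g, hg, hm, h⟩ := hsupp r hr
      rw [h]
      exact hU L List.mem_cons_self g hg hm
    rw [List.foldl_cons, ← Matrix.mul_assoc, heq, Matrix.mul_assoc]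
    by_cases hE : layerEntangling L = true
    · have := ih hC' hU' (prodOp u' * (rlistOp l * (X * Y))) (k + 1)
        ⟨u', rlistOp l * X, hu', ⟨l, X, hl, hlU, hX, rfl⟩, by rw [Matrix.mul_assoc]⟩
      have e : k + entanglingDepth (L :: C) = k + 1 + entanglingDepth C := by
        simp only [entanglingDepth, List.countP_cons, hE, if_true]
        ring
      rw [e]
      exact this
    · have hE' : layerEntangling L = false := by simpa using hE
      have hl0 := hent hE'
      subst hl0
      have := ih hC' hU' (prodOp u' * (rlistOp [] * (X * Y))) k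
        ⟨u', X, hu', hX, by simp [rlistOp]⟩
      have e : k + entanglingDepth (L :: C) = k + entanglingDepth C := by
        simp only [entanglingDepth, List.countP_cons, hE']
        simp
      rw [e]
      exact this

end Vale.Agent.Lib.P368
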