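import Vale.Agent.Lib.P368.DG.NFG

/-! # Normal form of one layer, with the supports -/

namespace Vale.Agent.Lib.P368

open Matrix Finset

set_option linter.unusedSectionVars false

variable {ι : Type} [Fintype ι] [DecidableEq ι]

/-- as `layer_nf` (`Normal.lean`, same induction), recording that the reflections come from the
multiqubit gates -/
theorem layer_nf_multi (L : List (Gate ι)) (hL : layerValid L) (u : ι → M2) (hu : LocalU u) :
    ∃ (u' : ι → M2) (l : List (Finset ι × (ι → M2))), LocalU u' ∧ rlistValid l ∧
      (∀ r ∈ l, ∃ g ∈ L, g.isMulti = true ∧ r.1 = g.supp) ∧ (layerEntangling L = false → l = []) ∧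
      layerOp L * prodOp u = prodOp u' * rlistOp l := by
  induction L with
  | nil =>
    exact ⟨u, [], hu, ⟨by simp, List.Pairwise.nil⟩, by simp, fun _ => rfl,
      by simp [layerOp, rlistOp]⟩
  | cons g L ih =>
    have hL' : layerValid L :=
      ⟨fun g' hg' => hL.1 g' (List.mem_cons_of_mem _ hg'), (List.pairwise_cons.1 hL.2).2⟩
    obtain ⟨u', l, hu', hl, hsupp, hent, heq⟩ := ih hL'
    have hop : layerOp (g :: L) * prodOp u = g.op * (prodOp u' * rlistOp l) := by
      rw [← heq]
      simp only [layerOp, List.map_cons, List.prod_cons, Matrix.mul_assoc]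
    have hg := hL.1 g List.mem_cons_self
    cases g with
    | single i s =>
      refine ⟨fun j => atSite i s j * u' j, l, ?_, hl, ?_, ?_, ?_⟩
      · intro j
        refine mul_mem ?_ (hu' j)
        by_cases hj : j = i
        · subst hj; rw [atSite_self]; exact hg
        · rw [atSite_ne i s hj]; exact one_mem _
      · intro r hr
        obtain ⟨g', hg', hm, h⟩ := hsupp r hr
        exact ⟨g', List.mem_cons_of_mem _ hg', hm, h⟩
      · intro h
        apply hent
        simpa [layerEntangling, Gate.isMulti] using h
      · rw [hop, single_eq, ← Matrix.mul_assoc, prodOp_mul]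
    | toffoli S b =>
      obtain ⟨hp, hv⟩ := refl_push hu' (tof_valid S b)
      refine ⟨u', (insert b S, fun j => (u' j)ᴴ * tofQ S b j * u' j) :: l, hu', ⟨?_, ?_⟩, ?_, ?_,
        ?_⟩
      · intro r hr
        rcases List.mem_cons.1 hr with rfl | hr
        · exact hv
        · exact hl.1 r hr
      · refine List.pairwise_cons.2 ⟨?_, hl.2⟩
        intro r hr
        obtain ⟨g', hg', -, h⟩ := hsupp r hr
        have := (List.pairwise_cons.1 hL.2).1 g' hg'
        rw [h]
        exact this
      · intro r hr
        rcases List.mem_cons.1 hr with rfl | hr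
        · exact ⟨_, List.mem_cons_self, rfl, rfl⟩
        · obtain ⟨g', hg', hm, h⟩ := hsupp r hr
          exact ⟨g', List.mem_cons_of_mem _ hg', hm, h⟩
      · intro h
        simp [layerEntangling, Gate.isMulti] at h
      · rw [hop, toffoli_eq S b hg.2, ← Matrix.mul_assoc, hp]
        simp only [rlistOp, List.map_cons, List.prod_cons, Matrix.mul_assoc]

end Vale.Agent.Lib.P368
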