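import Vale.Agent.Lib.P368.DH.MidN
import Vale.Agent.Lib.P368.DH.LargeN

/-! # The invariant of a stack of layers inside `U` -/

namespace Vale.Agent.Lib.P368

open Matrix Finset
open scoped Matrix.Norms.L2Operator

set_option linter.unusedSectionVars false

variable {ι : Type} [Fintype ι] [DecidableEq ι]

/-- as `StackInv` (`DG/StackStep.lean`) -/
def StackInvN (N : ℕ) (σ : List (Finset ι × (ι → M2))) (η w : ℝ) (Q E : ℕ) : Prop :=
  ∃ (σs : List (Finset ι × (ι → M2))) (W : Op ι), (∀ r ∈ σs, ReflValid r) ∧ LevelSN N σs η Q ∧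
    (∀ X : Op ι, conjBy σ X = Wᴴ * conjBy σs X * W) ∧ ‖W‖ ≤ 1 ∧ Apx [] w (39 ^ E) W

theorem stackInvN_base (N : ℕ) (ρ₂ : List (Finset ι × (ι → M2))) (hρ₂ : rlistValid ρ₂) (L : ℕ) :
    StackInvN N ρ₂ (2 / 2 ^ L) 1 L 0 := by
  refine ⟨ρ₂, 1, hρ₂.1, levelApxN_two N ρ₂ hρ₂ L, fun X => by simp, opn_one_le, 1, ?_, ?_⟩
  · rw [conjBy_nil]; simp
  · simpa using (Cost.one (ι := ι))

/-- copy of `stackInv_step` (`DG/StackStep.lean`) with `mid_stepN`, `large_apxSN`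
(`r.1.card ≤ U.card ≤ N` by `Finset.card_le_card`) -/
theorem stackInvN_step (N : ℕ) (U : Finset ι) (hUN : U.card ≤ N)
    (σ : List (Finset ι × (ι → M2))) (η w : ℝ) (Q E : ℕ)
    (h : StackInvN N σ η w Q E) (hη0 : 0 ≤ η) (hη : η ≤ 1 / 8) (L : ℕ) (K : ℝ)
    (hK : K = (((Nat.sqrt N + 1) * L : ℕ) : ℝ)) (hsmall : 224 * K ^ 2 * η ≤ 1)
    (ρ : List (Finset ι × (ι → M2))) (hρ : rlistValid ρ) (hsub : ∀ r ∈ ρ, r.1 ⊆ U) (t : ℕ)
    (ht : 1 ≤ t) :
    StackInvN N (ρ ++ σ) ((1 + η) * (1 + 2 / 2 ^ L + 84 * K ^ 2 * η) - 1)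
      ((1 + 2 * η) ^ N * w) (Q + (3 * ((t + 1) * Q) + 2) * L)
      (((2 * Q + 1) * N) / t + E) := by
  obtain ⟨σs, W, hv, hlev, hconj, hW, hApx⟩ := h
  obtain ⟨p, hp⟩ : ∃ p : Finset ι × (ι → M2) → Bool, p = fun r => decide (t * t < r.1.card) :=
    ⟨_, rfl⟩
  obtain ⟨ρl, hl⟩ : ∃ ρl, ρl = ρ.filter p := ⟨_, rfl⟩
  obtain ⟨ρs, hs⟩ : ∃ ρs, ρs = ρ.filter (fun r => !p r) := ⟨_, rfl⟩
  have hρl : rlistValid ρl := by rw [hl]; exact rlistValid_filter hρ p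
  have hρs : rlistValid ρs := by rw [hs]; exact rlistValid_filter hρ _
  have hbig : ∀ r ∈ ρl, t * t < r.1.card := by
    intro r hr
    rw [hl] at hr
    have h2 := (List.mem_filter.1 hr).2
    rw [hp] at h2
    simpa using h2
  have hsz : ∀ r ∈ ρs, r.1.card ≤ t * t := by
    intro r hr
    rw [hs] at hr
    have h2 := (List.mem_filter.1 hr).2
    rw [hp] at h2
    simpa using h2
  have hsubl : ∀ r ∈ ρl, r.1 ⊆ U := by
    intro r hr
    rw [hl] at hr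
    exact hsub r (List.mem_filter.1 hr).1
  have hNs : ∀ r ∈ ρs, r.1.card ≤ N := by
    intro r hr
    rw [hs] at hr
    exact (Finset.card_le_card (hsub r (List.mem_filter.1 hr).1)).trans hUN
  have hU : ‖rlistOp ρl‖ ≤ 1 := opn_rlistOp_le ρl hρl.1
  have hV : ‖conjBy σs (rlistOp ρl)‖ ≤ 1 := (opn_conjBy_le σs hv _).trans hU
  refine ⟨ρs ++ σs, conjBy σs (rlistOp ρl) * W, ?_, ?_, ?_, ?_, ?_⟩
  · intro r hr
    rcases List.mem_append.1 hr with h | h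
    · exact hρs.1 r h
    · exact hv r h
  · exact mid_stepN N σs hv η Q hlev hη0 hη L K hK hsmall ρs hρs hNs t hsz
  · intro X
    have e1 : conjBy ρ X = (rlistOp ρl)ᴴ * conjBy ρs X * rlistOp ρl := by
      unfold conjBy
      rw [rlistOp_split ρ hρ p, ← hl, ← hs]
      simp only [Matrix.conjTranspose_mul, Matrix.mul_assoc]
    rw [conjBy_append, hconj, e1, conjBy_mul σs hv, conjBy_mul σs hv, conjBy_append,
      Matrix.conjTranspose_mul, conjBy_conjTranspose]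
    simp only [Matrix.mul_assoc]
  · calc ‖conjBy σs (rlistOp ρl) * W‖ ≤ ‖conjBy σs (rlistOp ρl)‖ * ‖W‖ := norm_mul_le _ _
      _ ≤ 1 * 1 := by gcongr
      _ = 1 := by ring
  · have h1 := (large_apxSN N U hUN σs hv η Q hlev hη0 ρl hρl hsubl t ht hbig).to_nil
    have h2 := Apx.mul (ρ₂ := []) (by simp) hV hW h1 hApx
    rw [pow_add]
    exact h2

theorem stack_invN (N : ℕ) (U : Finset ι) (hUN : U.card ≤ N)
    (ρ₂ : List (Finset ι × (ι → M2))) (hρ₂ : rlistValid ρ₂) (L : ℕ) (K : ℝ)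
    (hK : K = (((Nat.sqrt N + 1) * L : ℕ) : ℝ)) (t : ℕ → ℕ) (ht : ∀ i, 1 ≤ t i)
    (mids : List (List (Finset ι × (ι → M2)))) (hm : ∀ ρ ∈ mids, rlistValid ρ)
    (hsub : ∀ ρ ∈ mids, ∀ r ∈ ρ, r.1 ⊆ U)
    (hη : ∀ i < mids.length, 0 ≤ etas L K i ∧ etas L K i ≤ 1 / 8 ∧
      224 * K ^ 2 * etas L K i ≤ 1) :
    StackInvN N (mids.flatten ++ ρ₂) (etas L K mids.length) (ws N L K mids.length)
      (Qs L t mids.length) (Es N L t mids.length) := by
  induction mids with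
  | nil => simpa [etas, ws, Qs, Es] using stackInvN_base N ρ₂ hρ₂ L
  | cons ρ rest ih =>
    have ih' := ih (fun ρ' h' => hm ρ' (List.mem_cons_of_mem _ h'))
      (fun ρ' h' => hsub ρ' (List.mem_cons_of_mem _ h'))
      (fun i hi => hη i (by simp only [List.length_cons]; omega))
    obtain ⟨h0, h1, h2⟩ := hη rest.length (by simp)
    have := stackInvN_step N U hUN _ _ _ _ _ ih' h0 h1 L K hK h2 ρ (hm ρ List.mem_cons_self)
      (hsub ρ List.mem_cons_self) (t rest.length) (ht _)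
    rw [List.flatten_cons, List.append_assoc, List.length_cons]
    exact this

end Vale.Agent.Lib.P368
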