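import Vale.Agent.Lib.P368.DG.TopG

/-! # The observable below two layers inside `U` -/

namespace Vale.Agent.Lib.P368

open Matrix Finset
open scoped Matrix.Norms.L2Operator

set_option linter.unusedSectionVars false

variable {ι : Type} [Fintype ι] [DecidableEq ι]

/-- copy of `top_apx` (`D4R/Top4R.lean`); the hypothesis `H` is only needed for `atSite o π`
(`o ∈ U`) and for `r.2` with `r ∈ l₄` (`r.1 ⊆ U`, `r.2 j = 1` outside `r.1`) -/
theorem top_apxU (U : Finset ι) (σ ρ₃ l₄ : List (Finset ι × (ι → M2)))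
    (hσ : ∀ r ∈ σ, ReflValid r) (hρ₃ : rlistValid ρ₃) (h₄ : rlistValid l₄)
    (h₄U : ∀ r ∈ l₄, r.1 ⊆ U) (o : ι) (ho : o ∈ U) (π : M2) (hπ : Pr π) (e c : ℝ) (hc1 : 1 ≤ c)
    (H : ∀ B : ι → M2, SiteP B → (∀ j, j ∉ U → B j = 1) → Apx σ e c (conjBy ρ₃ (prodOp B))) :
    Apx σ ((2 * e - 1) * e * (2 * e - 1)) ((1 + 2 * c) * c * (1 + 2 * c))
      (conjBy ρ₃ (conjBy l₄ (prodOp (atSite o π)))) := by
  have aπ := H _ (siteP_atSite o π hπ) (fun j hj => atSite_ne o π (fun h => hj (h ▸ ho)))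
  have he1 : 1 ≤ e := aπ.one_le
  rcases top4_form o π l₄ h₄ with h | ⟨r, hr, h⟩
  · rw [h]
    refine aπ.mono ?_ ?_
    · have h1 : 1 ≤ 2 * e - 1 := by linarith
      have h2 : e ≤ (2 * e - 1) * e := by nlinarith
      have h3 : 0 ≤ (2 * e - 1) * e := by nlinarith
      nlinarith
    · have h1 : 1 ≤ 1 + 2 * c := by linarith
      have h2 : c ≤ (1 + 2 * c) * c := by nlinarith
      have h3 : 0 ≤ (1 + 2 * c) * c := by nlinarith
      nlinarith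
  · rw [h]
    have vr := h₄.1 r hr
    have aq := H r.2 vr.site (fun j hj => vr.2 j (fun hjr => hj (h₄U r hr hjr)))
    have aR := Apx.one_sub_two hσ aq
    have eR : conjBy ρ₃ (reflOp r) = 1 - (2 : ℂ) • conjBy ρ₃ (prodOp r.2) := by
      unfold reflOp
      rw [conjBy_sub, conjBy_one ρ₃ hρ₃.1, conjBy_smul]
    rw [← eR] at aR
    have nR : ‖conjBy ρ₃ (reflOp r)‖ ≤ 1 :=
      (opn_conjBy_le ρ₃ hρ₃.1 _).trans (opn_reflOp_le vr)
    have nπ : ‖conjBy ρ₃ (prodOp (atSite o π))‖ ≤ 1 :=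
      (opn_conjBy_le ρ₃ hρ₃.1 _).trans (opn_prodOp_siteP_le (siteP_atSite o π hπ))
    have nRπ : ‖conjBy ρ₃ (reflOp r) * conjBy ρ₃ (prodOp (atSite o π))‖ ≤ 1 :=
      (norm_mul_le _ _).trans (mul_le_one₀ nR (norm_nonneg _) nπ)
    rw [conjBy_mul ρ₃ hρ₃.1, conjBy_mul ρ₃ hρ₃.1]
    exact Apx.mul hσ nRπ nR (Apx.mul hσ nR nπ aR aπ) aR

end Vale.Agent.Lib.P368
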