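import Vale.Agent.Lib.P368.DH.StackN
import Vale.Agent.Lib.P368.DH.DyadicN
import Vale.Agent.Lib.P368.DH.TopU

/-! # The observable below a stack inside `U` -/

namespace Vale.Agent.Lib.P368

open Matrix Finset
open scoped Matrix.Norms.L2Operator

set_option linter.unusedSectionVars false

variable {ι : Type} [Fintype ι] [DecidableEq ι]

/-- copy of `topG_apx` (`DG/TopG.lean`) with `level_stepN`, `top_apxU` -/
theorem topN_apx (N : ℕ) (U : Finset ι) (hUN : U.card ≤ N)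
    (σ ρ₃ l₄ : List (Finset ι × (ι → M2))) (η w : ℝ) (Q E : ℕ)
    (h : StackInvN N σ η w Q E) (hη0 : 0 ≤ η) (hη : η ≤ 1 / 8) (L : ℕ) (K : ℝ)
    (hK : K = (((Nat.sqrt N + 1) * L : ℕ) : ℝ)) (hsmall : 224 * K ^ 2 * η ≤ 1)
    (hρ₃ : rlistValid ρ₃) (h₃U : ∀ r ∈ ρ₃, r.1 ⊆ U) (h₄ : rlistValid l₄)
    (h₄U : ∀ r ∈ l₄, r.1 ⊆ U) (o : ι) (ho : o ∈ U) (π : M2) (hπ : Pr π) (e c : ℝ)
    (he : e = (1 + η) * (1 + 2 / 2 ^ L + 84 * K ^ 2 * η) ^ (Nat.log 2 N + 2))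
    (hc : c = 39 ^ totExp (fun s => (Nat.sqrt s + 1) * Q) N L) :
    Apx [] (w * ((2 * e - 1) * e * (2 * e - 1)) * w)
      (39 ^ E * ((1 + 2 * c) * c * (1 + 2 * c)) * 39 ^ E)
      (conjBy σ (conjBy ρ₃ (conjBy l₄ (prodOp (atSite o π))))) := by
  obtain ⟨σs, W, hσs, hlev, hconj, hW, aW⟩ := h
  have H : ∀ B : ι → M2, SiteP B → (∀ j, j ∉ U → B j = 1) →
      Apx σs e c (conjBy ρ₃ (prodOp B)) := by
    intro B hB hBU
    have := level_stepN N U hUN σs hσs η _ (sqrtQ_mono Q) hlev hη0 hη L K hK hsmall ρ₃ hρ₃ h₃U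
      B hB hBU
    rw [he, hc]
    exact this
  have hc1 : 1 ≤ c := by rw [hc]; exact one_le_pow₀ (by norm_num)
  have aY := (top_apxU U σs ρ₃ l₄ hσs hρ₃ h₄ h₄U o ho π hπ e c hc1 H).to_nil
  have nY : ‖conjBy σs (conjBy ρ₃ (conjBy l₄ (prodOp (atSite o π))))‖ ≤ 1 :=
    (opn_conjBy_le σs hσs _).trans ((opn_conjBy_le ρ₃ hρ₃.1 _).trans
      ((opn_conjBy_le l₄ h₄.1 _).trans (opn_prodOp_siteP_le (siteP_atSite o π hπ))))
  have nWh : ‖Wᴴ‖ ≤ 1 := by rw [Matrix.l2_opNorm_conjTranspose]; exact hW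
  have hnil : ∀ r ∈ ([] : List (Finset ι × (ι → M2))), ReflValid r := by
    intro r hr
    exact absurd hr List.not_mem_nil
  have nWY : ‖Wᴴ * conjBy σs (conjBy ρ₃ (conjBy l₄ (prodOp (atSite o π))))‖ ≤ 1 :=
    (norm_mul_le _ _).trans (mul_le_one₀ nWh (norm_nonneg _) nY)
  rw [hconj]
  exact Apx.mul hnil nWY hW (Apx.mul hnil nWh nY aW.adj_nil aY) aW

end Vale.Agent.Lib.P368
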